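import Vale.Agent.P176R38.Br
import Vale.Agent.P176.H231.All
import Vale.Agent.P176.H807.Quant

/-!
# P176: the finitistic dimension conjecture is false, projective dimension by resolutions
-/

open Vale.Agent.P176R38

universe u

theorem Vale.Agent.Results.P176.AResolutions.result :
    (∀ (A : Type u) [Ring A], findim A ≤ Findim A ∧ ∀ N : ModuleCat.{u} A,
      (∀ n : ℕ, pd N ≤ n ↔ HasRes N n) ∧
        (pd N : WithBot ℕ∞) = max (CategoryTheory.projectiveDimension N) 0) ∧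
    (¬ ∀ (K A : Type u) [Field K] [Ring A] [Algebra K A], Module.Finite K A → findim A < ⊤) ∧
    (¬ ∀ (R A : Type u) [CommRing R] [IsArtinianRing R] [Ring A] [Algebra R A],
      Module.Finite R A → findim A < ⊤) ∧
    (∀ (K : Type u) [Field K], (∀ F : Subfield K, Finite F → ¬ Algebra.IsAlgebraic F K) →
      ∃ (A : Type u) (_ : Ring A) (_ : Algebra K A), Module.Finite K A ∧
        Nonempty (A ≃ₐ[K] Aᵐᵒᵖ) ∧ findim A = ⊤ ∧ findim Aᵐᵒᵖ = ⊤) ∧
    ∀ (K : Type u) [Field K] [CharZero K], ∃ (A : Type u) (_ : Ring A) (_ : Algebra K A),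
      Module.finrank K A = 710 ∧ findim A = ⊤ := by
  have h : ∀ (K : Type u) [Field K], (∀ F : Subfield K, Finite F → ¬ Algebra.IsAlgebraic F K) →
      ∃ (A : Type u) (_ : Ring A) (_ : Algebra K A), Module.Finite K A ∧
        Nonempty (A ≃ₐ[K] Aᵐᵒᵖ) ∧ findim A = ⊤ ∧ findim Aᵐᵒᵖ = ⊤ := fun K _ hK => by
    obtain ⟨t, h0, ht⟩ := Vale.Agent.P195.H231.exists_order hK
    obtain ⟨A, _, _, h1, h2, h3, h4⟩ := Vale.Agent.P176.H231.exists_all K h0 ht
    exact ⟨A, _, _, h1, h2, findim_top h3, findim_top h4⟩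
  obtain ⟨K, _, -, hK⟩ := Vale.Agent.P195.H231.exists_field.{u} 2 Nat.prime_two
  obtain ⟨A, _, _, h1, -, h2, -⟩ := h K hK
  refine ⟨fun A _ => ⟨findim_le, fun N => ⟨pd_le N, pd_eq N⟩⟩, fun h3 => (h3 K A h1).ne h2,
    fun h3 => (h3 K A h1).ne h2, h, fun K _ _ => ?_⟩
  obtain ⟨A, _, _, -, h3, -, -, h4⟩ := Vale.Agent.P176.H807.exists_quant K
  exact ⟨A, _, _, h3, findim_top h4⟩
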